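import Vale.Agent.Lib.P050.Main

/-! P050: Sidorenko inequalities with Cayley targets on finite abelian groups. -/

open Finset

namespace Vale.Agent.Results.P050.CayleySubdivisions

theorem result {G : Type} [AddCommGroup G] [Fintype G] {V E : Type} [Fintype V] [Fintype E]
    [DecidableEq V] [DecidableEq E] (u v : E → V) :
    -- (1) one-subdivision of the multigraph `(V, E, u, v)`, target a Cayley (di)graph
    (∀ S : Set G, ((Nat.card S : ℝ) / Fintype.card G) ^ (2 * Fintype.card E) ≤
      (Nat.card {z : (V → G) × (E → G) // ∀ e, z.1 (u e) - z.2 e ∈ S ∧ z.1 (v e) - z.2 e ∈ S} : ℝ)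
        / (Fintype.card G : ℝ) ^ (Fintype.card V + Fintype.card E)) ∧
    -- (2) weighted form, a different kernel for every edge
    (∀ f : E → G → ℝ, ∏ e, ((∑ g, f e g) / Fintype.card G) ^ 2 ≤
      (∑ x : V → G, ∑ y : E → G, ∏ e, (f e (x (u e) - y e) * f e (x (v e) - y e))) /
        (Fintype.card G : ℝ) ^ (Fintype.card V + Fintype.card E)) ∧
    -- (3) every multigraph, kernels with nonnegative Fourier coefficients
    (∀ (c : E → AddChar G ℂ → ℝ) (f : E → G → ℝ), (∀ e χ, 0 ≤ c e χ) →
      (∀ e x, (f e x : ℂ) = ∑ χ, (c e χ : ℂ) * χ x) →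
      ∏ e, (∑ g, f e g) / Fintype.card G ≤
        (∑ x : V → G, ∏ e, f e (x (u e) - x (v e))) /
          (Fintype.card G : ℝ) ^ Fintype.card V) :=
  ⟨fun S => Vale.Agent.P050.count u v S, fun f => Vale.Agent.P050.subdivision u v f,
    fun c f hc hf => Vale.Agent.P050.cayley u v c hc f hf⟩

end Vale.Agent.Results.P050.CayleySubdivisions
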